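import Vale.Agent.P217.Fgl.Honda

/-!
P217, module M1: the concrete law is nice.
-/

set_option linter.unusedSectionVars false

namespace Vale.Agent.P217

noncomputable section

variable {n p : ℕ} [hp : Fact p.Prime]

lemma FE_log (L : Type) [Field L] [CharZero L] (x : E p n →+* L) (f : PowerSeries L)
    (hf : IsLogSeries p n (fun i => x (u p n i)) f) :
    PowerSeries.subst (((FE n p).map x : FormalGroup L) : MvPowerSeries (Fin 2) L) f =
      PowerSeries.subst (MvPowerSeries.X (0 : Fin 2) : MvPowerSeries (Fin 2) L) f +
        PowerSeries.subst (MvPowerSeries.X (1 : Fin 2) : MvPowerSeries (Fin 2) L) f := by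
  obtain rfl := isLogSeries_unique (fun i => x (u p n i)) hf (isLogSeries_map _)
  have hcomp : x.comp (toE n p) = (evalL fun i => x (u p n i)).comp (iotaQ n) := by
    refine MvPolynomial.ringHom_ext (fun z => ?_) (fun j => ?_)
    · simp
    · simp [toE, evalL, iotaQ]
  exact log_map_FP (toE n p) _ hcomp

/-- The law `FE` has all the properties used by the other modules. -/
theorem FE_nice (hn : 1 ≤ n) : IsNice p n (FE n p) :=
  { comm := inferInstance
    honda := FE_honda hn
    standard := FE_standard hn
    galois_fixed := FE_galois n p
    log := FE_log }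

variable (p n) in
/-- **M1.** -/
theorem fglStatement : FglStatement p n := fun hn => ⟨FE n p, FE_nice hn⟩

end

end Vale.Agent.P217
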