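import Vale.Agent.P217.Fgl.Recursion
import Vale.Agent.P217.Series

/-!
P217, module M1: multiplication by `p`, standard coordinates, the special fibre and the
statement of the module.
-/

set_option linter.unusedSectionVars false

namespace Vale.Agent.P217

noncomputable section

variable {n p : ℕ} [hp : Fact p.Prime]

/-- Setting `u_j = 0` for `j < h`, integrally. -/
def epsZ (n h : ℕ) : PZ n →+* PZ n :=
  MvPolynomial.eval₂Hom (MvPolynomial.C : ℤ →+* PZ n)
    fun j => if (j : ℕ) + 1 < h then 0 else MvPolynomial.X j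

/-- Setting `u_j = 0` for `j < h`, rationally. -/
def epsQ (n h : ℕ) : PQ n →+* PQ n :=
  MvPolynomial.eval₂Hom (MvPolynomial.C : ℚ →+* PQ n)
    fun j => if (j : ℕ) + 1 < h then 0 else MvPolynomial.X j

lemma epsQ_iotaQ (h : ℕ) (x : PZ n) : epsQ n h (iotaQ n x) = iotaQ n (epsZ n h x) := by
  refine RingHom.congr_fun (f := (epsQ n h).comp (iotaQ n)) (g := (iotaQ n).comp (epsZ n h))
    (MvPolynomial.ringHom_ext (fun z => by simp [epsQ, epsZ, iotaQ]) fun j => ?_) x
  simp only [RingHom.comp_apply, epsQ, epsZ, iotaQ, MvPolynomial.map_X, MvPolynomial.eval₂Hom_X']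
  split_ifs <;> simp

lemma epsZ_vv_of_lt {h i : ℕ} (hh : h ≤ n) (hi : i < h) : epsZ n h (vv n i) = 0 := by
  unfold vv
  rcases Nat.eq_zero_or_pos i with rfl | h0
  · rw [dif_neg (by omega), if_neg (by omega), map_zero]
  · rw [dif_pos (by omega)]
    simp only [epsZ, MvPolynomial.eval₂Hom_X']
    rw [if_pos (by omega)]

lemma epsZ_vv_self (h : ℕ) : epsZ n h (vv n h) = vv n h := by
  unfold vv
  split_ifs with h1
  · simp only [epsZ, MvPolynomial.eval₂Hom_X']
    rw [if_neg (by omega)]
  · exact map_one _
  · exact map_zero _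

lemma vv_self (_hn : 1 ≤ n) : vv n n = 1 := by
  rw [vv, dif_neg (by omega), if_pos rfl]

lemma log_mulSeries (m : ℕ) :
    PowerSeries.subst (PowerSeries.map (iotaQ n) (mulSeries (FP n p) m)) (logS n p) =
      (m : PowerSeries (PQ n)) * logS n p := by
  induction m with
  | zero =>
    rw [Nat.cast_zero, zero_mul, mulSeries, map_zero]
    exact PowerSeries.subst_zero_of_constantCoeff_zero logS_constantCoeff
  | succ m ih =>
    have hM : MvPowerSeries.constantCoeff (mulSeries (FP n p) m : MvPowerSeries Unit (PZ n)) = 0 :=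
      constantCoeff_mulSeries (FP n p) m
    have hX : MvPowerSeries.constantCoeff (PowerSeries.X : MvPowerSeries Unit (PZ n)) = 0 :=
      PowerSeries.constantCoeff_X
    have e : (PowerSeries.map (iotaQ n) (mulSeries (FP n p) (m + 1)) : MvPowerSeries Unit (PQ n)) =
        MvPowerSeries.subst ![(PowerSeries.X : MvPowerSeries Unit (PQ n)),
          (PowerSeries.map (iotaQ n) (mulSeries (FP n p) m) : MvPowerSeries Unit (PQ n))]
          (seriesQ n p) := by
      rw [mulSeries]
      refine (map_subst_seriesZ (n := n) (p := p) hX hM).trans ?_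
      congr 1
      funext i
      fin_cases i
      · exact PowerSeries.map_X _
      · rfl
    rw [e, log_add (PowerSeries.constantCoeff_X (R := PQ n))
      (by change PowerSeries.constantCoeff (PowerSeries.map (iotaQ n) _) = 0
          rw [← PowerSeries.coeff_zero_eq_constantCoeff_apply, PowerSeries.coeff_map,
            PowerSeries.coeff_zero_eq_constantCoeff_apply, constantCoeff_mulSeries, map_zero]),
      ih, Nat.cast_succ]
    change PowerSeries.subst PowerSeries.X (logS n p) + _ = _
    rw [PowerSeries.X_subst]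
    ring

lemma constantCoeff_mapPS {R S : Type*} [CommRing R] [CommRing S] (θ : R →+* S)
    (f : PowerSeries R) :
    PowerSeries.constantCoeff (PowerSeries.map θ f) = θ (PowerSeries.constantCoeff f) := by
  rw [← PowerSeries.coeff_zero_eq_constantCoeff_apply, PowerSeries.coeff_map,
    PowerSeries.coeff_zero_eq_constantCoeff_apply]

lemma map_mapPS {R S T : Type*} [CommRing R] [CommRing S] [CommRing T] (g : S →+* T) (f : R →+* S)
    (L : PowerSeries R) :
    PowerSeries.map g (PowerSeries.map f L) = PowerSeries.map (g.comp f) L := by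
  ext e
  simp

/-- `p` times the functional equation, after setting `u_j = 0`. -/
lemma p_mul_logS_eps (h : ℕ) :
    (p : PowerSeries (PQ n)) * PowerSeries.map (epsQ n h) (logS n p) =
    PowerSeries.C (p : PQ n) * PowerSeries.X + ∑ i : Fin n,
      PowerSeries.C (iotaQ n (epsZ n h (vv n ((i : ℕ) + 1)))) *
        PowerSeries.expand (p ^ ((i : ℕ) + 1)) (pow_ne_zero _ hp.out.ne_zero)
          (PowerSeries.map ((epsQ n h).comp (sigmaQ n p (i + 1))) (logS n p)) := by
  refine (congrArg (fun L => (p : PowerSeries (PQ n)) * PowerSeries.map (epsQ n h) L)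
    (logS_eq (n := n) (p := p))).trans ?_
  have hcast : (p : PowerSeries (PQ n)) = PowerSeries.C (p : PQ n) := by rw [map_natCast]
  rw [hcast, map_add, PowerSeries.map_X, map_sum, mul_add, Finset.mul_sum]
  refine congrArg₂ (· + ·) rfl (Finset.sum_congr rfl fun i _ => ?_)
  rw [map_mul, PowerSeries.map_C, PowerSeries.map_expand, map_mapPS, ← mul_assoc, ← map_mul,
    ← epsQ_iotaQ, ← p_mul_sc (p := p), map_mul (epsQ n h), map_natCast (epsQ n h)]

/-- The logarithm of `[p]` after setting `u_j = 0`. -/
lemma log_eps_mulSeries (h : ℕ) :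
    PowerSeries.subst
      (PowerSeries.map (iotaQ n) (PowerSeries.map (epsZ n h) (mulSeries (FP n p) p)))
      (PowerSeries.map (epsQ n h) (logS n p)) =
    PowerSeries.C (p : PQ n) * PowerSeries.X + ∑ i : Fin n,
      PowerSeries.C (iotaQ n (epsZ n h (vv n ((i : ℕ) + 1)))) *
        PowerSeries.expand (p ^ ((i : ℕ) + 1)) (pow_ne_zero _ hp.out.ne_zero)
          (PowerSeries.map ((epsQ n h).comp (sigmaQ n p (i + 1))) (logS n p)) := by
  have hs : PowerSeries.HasSubst (PowerSeries.map (iotaQ n) (mulSeries (FP n p) p)) :=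
    .of_constantCoeff_zero' (by
      rw [constantCoeff_mapPS, constantCoeff_mulSeries, map_zero])
  have e : PowerSeries.map (iotaQ n) (PowerSeries.map (epsZ n h) (mulSeries (FP n p) p)) =
      PowerSeries.map (epsQ n h) (PowerSeries.map (iotaQ n) (mulSeries (FP n p) p)) := by
    ext N
    simp [epsQ_iotaQ]
  rw [e, ← p_mul_logS_eps]
  refine (PowerSeries.map_subst (h := epsQ n h) hs (logS n p)).symm.trans ?_
  rw [log_mulSeries]
  change PowerSeries.map (epsQ n h) _ = _
  rw [map_mul, map_natCast]

lemma congr_powerSeries {θQ : PQ n →+* PQ n} {θZ : PZ n →+* PZ n}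
    (hθ : ∀ x, θQ (iotaQ n x) = iotaQ n (θZ x)) {G H : PowerSeries (PZ n)}
    (hG : PowerSeries.constantCoeff G = 0) (hH : PowerSeries.constantCoeff H = 0) {N : ℕ}
    (h : ∀ e ≤ N, ∃ c, PowerSeries.coeff e
      (PowerSeries.subst (PowerSeries.map (iotaQ n) G) (PowerSeries.map θQ (logS n p)) -
        PowerSeries.subst (PowerSeries.map (iotaQ n) H) (PowerSeries.map θQ (logS n p))) =
          (p : PQ n) * iotaQ n c) :
    ∀ e ≤ N, (p : PZ n) ∣ PowerSeries.coeff e G - PowerSeries.coeff e H := by
  intro e he
  refine congr_of_log (τ := Unit) (p := p) hθ hG hH (N := N) (fun d hd => ?_) (Finsupp.single () e)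
    (by rw [Finsupp.degree_single]; exact he)
  rw [Finsupp.unique_single d] at hd ⊢
  rw [Finsupp.degree_single] at hd
  exact h _ hd

lemma constantCoeff_eps_mulSeries (h : ℕ) :
    PowerSeries.constantCoeff (PowerSeries.map (epsZ n h) (mulSeries (FP n p) p)) = 0 := by
  rw [← PowerSeries.coeff_zero_eq_constantCoeff_apply, PowerSeries.coeff_map,
    PowerSeries.coeff_zero_eq_constantCoeff_apply, constantCoeff_mulSeries, map_zero]

/-- Multiplication by `p` modulo `p` and `u_1, ..., u_(h-1)` starts with `u_h X^(p^h)`. -/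
lemma eps_mulSeries_low {h : ℕ} (h1 : 1 ≤ h) (h2 : h ≤ n) :
    ∀ e ≤ p ^ h, (p : PZ n) ∣
      epsZ n h (PowerSeries.coeff e (mulSeries (FP n p) p)) -
        (if e = p ^ h then vv n h else 0) := by
  set q := p ^ h with hq
  have hq2 : 2 ≤ q := le_trans hp.out.two_le (Nat.le_self_pow (by omega) p)
  set H : PowerSeries (PZ n) := PowerSeries.C (vv n h) * PowerSeries.X ^ q with hHdef
  have hH : PowerSeries.constantCoeff H = 0 := by simp [hHdef, show q ≠ 0 by omega]
  have key := congr_powerSeries (p := p) (epsQ_iotaQ (n := n) h)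
    (constantCoeff_eps_mulSeries (p := p) h) hH (N := q) ?_
  · intro e he
    have := key e he
    simpa [hHdef, PowerSeries.coeff_X_pow, mul_ite] using this
  intro e he
  refine ⟨if e = 1 then 1 else 0, ?_⟩
  rw [map_sub, log_eps_mulSeries, map_add, map_sum]
  have hterms : ∀ i : Fin n, PowerSeries.coeff e
      (PowerSeries.C (iotaQ n (epsZ n h (vv n ((i : ℕ) + 1)))) *
        PowerSeries.expand (p ^ ((i : ℕ) + 1)) (pow_ne_zero _ hp.out.ne_zero)
          (PowerSeries.map ((epsQ n h).comp (sigmaQ n p (i + 1))) (logS n p))) =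
      if e = q ∧ (i : ℕ) + 1 = h then iotaQ n (vv n h) else 0 := by
    intro i
    rw [PowerSeries.coeff_C_mul, PowerSeries.coeff_expand]
    rcases lt_or_ge ((i : ℕ) + 1) h with hlt | hge
    · rw [epsZ_vv_of_lt h2 hlt, map_zero, zero_mul, if_neg (by omega)]
    split_ifs with hd he' he'
    · obtain ⟨rfl, hih⟩ := he'
      rw [hih, ← hq, Nat.div_self (by omega), PowerSeries.coeff_map, logS_coeff_one, map_one,
        mul_one, epsZ_vv_self]
    · rcases Nat.eq_zero_or_pos e with rfl | he0
      · rw [Nat.zero_div, PowerSeries.coeff_zero_eq_constantCoeff_apply,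
          constantCoeff_mapPS, logS_constantCoeff, map_zero, mul_zero]
      · exfalso
        have hle : p ^ ((i : ℕ) + 1) ≤ e := Nat.le_of_dvd he0 hd
        have hqle : q ≤ p ^ ((i : ℕ) + 1) := Nat.pow_le_pow_right hp.out.pos hge
        refine he' ⟨by omega, Nat.pow_right_injective hp.out.two_le (?_ : p ^ _ = p ^ h)⟩
        omega
    · obtain ⟨rfl, hih⟩ := he'
      rw [hih] at hd
      exact absurd (dvd_refl _) hd
    · rw [mul_zero]
  rw [Finset.sum_congr rfl fun i _ => hterms i]
  have hsum : (∑ i : Fin n, if e = q ∧ (i : ℕ) + 1 = h then iotaQ n (vv n h) else 0) =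
      if e = q then iotaQ n (vv n h) else 0 := by
    rw [Finset.sum_eq_single ⟨h - 1, by omega⟩]
    · simp [show h - 1 + 1 = h by omega]
    · intro b _ hb
      rw [if_neg]
      rintro ⟨-, hb'⟩
      exact hb (Fin.ext (by simp; omega))
    · simp
  rw [hsum]
  have hHQ : PowerSeries.coeff e (PowerSeries.subst (PowerSeries.map (iotaQ n) H)
      (PowerSeries.map (epsQ n h) (logS n p))) = if e = q then iotaQ n (vv n h) else 0 := by
    have hc : MvPowerSeries.constantCoeff
        (PowerSeries.map (iotaQ n) H : MvPowerSeries Unit (PQ n)) = 0 := by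
      change PowerSeries.constantCoeff (PowerSeries.map (iotaQ n) H) = 0
      rw [constantCoeff_mapPS, hH, map_zero]
    have e0 := congrArg (MvPowerSeries.coeff (Finsupp.single () e))
      (subst_map_logS (p := p) (epsQ n h) hc)
    refine e0.trans ?_
    rw [map_add, map_sum, Finset.sum_eq_zero, add_zero]
    · change PowerSeries.coeff e (PowerSeries.map (iotaQ n) H) = _
      simp [hHdef, PowerSeries.coeff_X_pow]
    · intro i _
      rw [MvPowerSeries.coeff_C_mul]
      refine mul_eq_zero_of_right _ (MvPowerSeries.coeff_of_lt_order (lt_of_lt_of_le ?_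
        (PowerSeries.le_order_subst _ (.of_constantCoeff_zero (by
          simp [hc, hp.out.ne_zero])) _)))
      rw [Finsupp.degree_single]
      have hone : (1 : ℕ∞) ≤
          (PowerSeries.map ((epsQ n h).comp (sigmaQ n p (i + 1))) (logS n p)).order := by
        rw [Order.one_le_iff_ne_zero, PowerSeries.order_ne_zero_iff_constCoeff_eq_zero,
          constantCoeff_mapPS, logS_constantCoeff, map_zero]
      have hordH : (q : ℕ∞) ≤
          MvPowerSeries.order (PowerSeries.map (iotaQ n) H : MvPowerSeries Unit (PQ n)) := by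
        refine MvPowerSeries.nat_le_order fun d hd => ?_
        rw [Finsupp.unique_single d] at hd ⊢
        rw [Finsupp.degree_single] at hd
        change PowerSeries.coeff (d ()) (PowerSeries.map (iotaQ n) H) = 0
        simp [hHdef, PowerSeries.coeff_X_pow]
        intro hd'
        simp at hd
        have : d () = d PUnit.unit := rfl
        omega
      have hk : 2 ≤ p ^ ((i : ℕ) + 1) :=
        le_trans hp.out.two_le (Nat.le_self_pow (Nat.succ_ne_zero _) p)
      refine lt_of_lt_of_le ?_ (mul_le_mul' (le_trans (nsmul_le_nsmul_right hordH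
        (p ^ ((i : ℕ) + 1))) (MvPowerSeries.le_order_pow (f := (PowerSeries.map (iotaQ n) H :
          MvPowerSeries Unit (PQ n))) _)) hone)
      rw [mul_one, nsmul_eq_mul]
      have : e < p ^ ((i : ℕ) + 1) * q :=
        lt_of_lt_of_le (by omega : e < 2 * q) (Nat.mul_le_mul_right q hk)
      exact_mod_cast this
  rw [hHQ, add_sub_cancel_right, PowerSeries.coeff_C_mul, PowerSeries.coeff_X]
  split_ifs <;> simp

/-- Modulo `p` and all parameters, `[p](X) = X^(p^n)`. -/
lemma eps_mulSeries_honda (hn : 1 ≤ n) (e : ℕ) : (p : PZ n) ∣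
    epsZ n n (PowerSeries.coeff e (mulSeries (FP n p) p)) - (if e = p ^ n then 1 else 0) := by
  have hQ : p ^ n ≠ 0 := pow_ne_zero _ hp.out.ne_zero
  have hH : PowerSeries.constantCoeff (PowerSeries.X ^ (p ^ n) : PowerSeries (PZ n)) = 0 := by
    rw [map_pow, PowerSeries.constantCoeff_X, zero_pow hQ]
  have key := congr_powerSeries (p := p) (epsQ_iotaQ (n := n) n)
    (constantCoeff_eps_mulSeries (p := p) n) hH (N := e) ?_ e le_rfl
  · simpa [PowerSeries.coeff_X_pow] using key
  intro d _
  refine ⟨if d = 1 then 1 else 0, ?_⟩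
  have hφ : (epsQ n n).comp (sigmaQ n p n) = epsQ n n := by
    refine MvPolynomial.ringHom_ext (fun r => by simp [epsQ, sigmaQ]) (fun j => ?_)
    have := j.isLt
    simp [epsQ, sigmaQ, show (j : ℕ) + 1 < n by omega, hp.out.ne_zero]
  have hsum : (∑ i : Fin n, PowerSeries.C (iotaQ n (epsZ n n (vv n ((i : ℕ) + 1)))) *
        PowerSeries.expand (p ^ ((i : ℕ) + 1)) (pow_ne_zero _ hp.out.ne_zero)
          (PowerSeries.map ((epsQ n n).comp (sigmaQ n p (i + 1))) (logS n p))) =
      PowerSeries.subst (PowerSeries.map (iotaQ n) (PowerSeries.X ^ (p ^ n) : PowerSeries (PZ n)))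
        (PowerSeries.map (epsQ n n) (logS n p)) := by
    rw [map_pow, PowerSeries.map_X, ← PowerSeries.expand_apply _ hQ]
    rw [Finset.sum_eq_single ⟨n - 1, by omega⟩]
    · simp only [show n - 1 + 1 = n by omega, vv_self hn, map_one, one_mul, hφ]
    · intro b _ hb
      have hb' : (b : ℕ) + 1 < n := by
        have := b.isLt
        by_contra hh
        exact hb (Fin.ext (by simp; omega))
      rw [epsZ_vv_of_lt le_rfl hb', map_zero, map_zero, zero_mul]
    · simp
  rw [log_eps_mulSeries, hsum, add_sub_cancel_right, PowerSeries.coeff_C_mul,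
    PowerSeries.coeff_X]
  split_ifs <;> simp

/-- An element differs from its truncation by the small parameters. -/
lemma sub_epsZ_mem (h : ℕ) (x : PZ n) : x - epsZ n h x ∈
    Ideal.span {y : PZ n | ∃ j : Fin (n - 1), (j : ℕ) + 1 < h ∧ y = MvPolynomial.X j} := by
  induction x using MvPolynomial.induction_on with
  | C a => simp [epsZ]
  | add a b ha hb =>
    rw [map_add, add_sub_add_comm]
    exact Ideal.add_mem _ ha hb
  | mul_X a j ha =>
    have e : a * MvPolynomial.X j - epsZ n h (a * MvPolynomial.X j) =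
        (a - epsZ n h a) * epsZ n h (MvPolynomial.X j) +
          a * (MvPolynomial.X j - epsZ n h (MvPolynomial.X j)) := by
      rw [map_mul]; ring
    rw [e]
    refine Ideal.add_mem _ (Ideal.mul_mem_right _ _ ha) (Ideal.mul_mem_left _ _ ?_)
    simp only [epsZ, MvPolynomial.eval₂Hom_X']
    split_ifs with hj
    · rw [sub_zero]
      exact Ideal.subset_span ⟨j, hj, rfl⟩
    · simp

lemma toE_mem_heightIdeal {h : ℕ} (h1 : 1 ≤ h) {x y : PZ n}
    (hxy : (p : PZ n) ∣ epsZ n h x - y) (hy : epsZ n h y = y) :
    toE n p x - toE n p y ∈ heightIdeal p n h := by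
  obtain ⟨k, rfl⟩ : ∃ k, h = k + 1 := ⟨h - 1, by omega⟩
  obtain ⟨c, hc⟩ := hxy
  have hy' : y - epsZ n (k + 1) y = 0 := sub_eq_zero.2 hy.symm
  have e : x - y = (x - epsZ n (k + 1) x) + (p : PZ n) * c := by rw [← hc]; ring
  rw [← map_sub, e, map_add, map_mul, map_natCast]
  rw [heightIdeal]
  refine Ideal.add_mem _ ?_ (Ideal.mul_mem_right _ _ (Ideal.subset_span (Set.mem_insert _ _)))
  have hmem := Ideal.mem_map_of_mem (toE n p) (sub_epsZ_mem (k + 1) x)
  rw [Ideal.map_span] at hmem
  refine Ideal.span_mono ?_ hmem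
  rintro _ ⟨_, ⟨j, hj, rfl⟩, rfl⟩
  exact Set.mem_insert_of_mem _ ⟨j, by omega, by simp [toE]⟩

lemma mulSeries_FE (m : ℕ) :
    mulSeries (FE n p) m = PowerSeries.map (toE n p) (mulSeries (FP n p) m) :=
  (map_mulSeries (toE n p) (FP n p) m).symm

lemma toE_vv (i : Fin (n - 1)) : toE n p (vv n ((i : ℕ) + 1)) = u p n i := by
  have := i.isLt
  rw [vv, dif_pos (by omega)]
  simp [toE]

lemma FE_standard (hn : 1 ≤ n) : IsStandard p n (FE n p) := by
  refine ⟨fun i => ⟨fun m hm => ?_, ?_⟩, ?_⟩
  · have := i.isLt
    have h := eps_mulSeries_low (n := n) (p := p) (h := (i : ℕ) + 1) (by omega) (by omega) m hm.le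
    rw [if_neg hm.ne] at h
    have := toE_mem_heightIdeal (p := p) (by omega) h (map_zero _)
    rwa [map_zero, sub_zero, ← PowerSeries.coeff_map, ← mulSeries_FE] at this
  · have := i.isLt
    have h := eps_mulSeries_low (n := n) (p := p) (h := (i : ℕ) + 1) (by omega) (by omega) _ le_rfl
    rw [if_pos rfl] at h
    have := toE_mem_heightIdeal (p := p) (by omega) h (epsZ_vv_self _)
    rwa [← PowerSeries.coeff_map, ← mulSeries_FE, toE_vv] at this
  · have h := eps_mulSeries_low (n := n) (p := p) (h := n) hn le_rfl _ le_rfl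
    rw [if_pos rfl, vv_self hn] at h
    have := toE_mem_heightIdeal (p := p) hn h (map_one _)
    rwa [map_one, ← PowerSeries.coeff_map, ← mulSeries_FE] at this

/-- Evaluation at `u = 0` in the p-adic integers. -/
def evalZp (n p : ℕ) [Fact p.Prime] : PZ n →+* ℤ_[p] :=
  MvPolynomial.eval₂Hom (Int.castRingHom ℤ_[p]) fun _ => 0

lemma res_comp_toE : (res p n).comp (toE n p) =
    ((algebraMap (ZMod p) (K p n)).comp PadicInt.toZMod).comp (evalZp n p) := by
  refine MvPolynomial.ringHom_ext (fun z => ?_) (fun j => ?_)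
  · simp
  · simp [res, toE, evalZp, u]

lemma res_toE_eps (h : ℕ) (x : PZ n) : res p n (toE n p (epsZ n h x)) = res p n (toE n p x) := by
  refine RingHom.congr_fun (f := ((res p n).comp (toE n p)).comp (epsZ n h))
    (g := (res p n).comp (toE n p)) ?_ x
  refine MvPolynomial.ringHom_ext (fun z => ?_) (fun j => ?_)
  · simp [epsZ]
  · simp only [RingHom.comp_apply, epsZ, MvPolynomial.eval₂Hom_X']
    split_ifs <;> simp [res, toE, u]

/-- The logarithm at `u = 0` over the p-adic numbers. -/
lemma evalL_zero_logC (hn : 1 ≤ n) (m : ℕ) :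
    evalL (L := ℚ_[p]) (n := n) (fun _ => 0) (logC n p m) =
      if n ∣ m then ((p : ℚ_[p]) ^ (m / n))⁻¹ else 0 := by
  induction m using Nat.strong_induction_on with
  | _ m ih =>
    match m with
    | 0 => simp [logC]
    | m + 1 =>
      have hσ : ∀ i x, evalL (L := ℚ_[p]) (n := n) (fun _ => 0) (sigmaQ n p i x) =
          evalL (L := ℚ_[p]) (n := n) (fun _ => 0) x := fun i x => by
        refine RingHom.congr_fun
          (f := (evalL (L := ℚ_[p]) (n := n) fun _ => 0).comp (sigmaQ n p i))
          (g := evalL (L := ℚ_[p]) (n := n) fun _ => 0) ?_ x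
        refine MvPolynomial.ringHom_ext (fun r => ?_) (fun j => ?_)
        · simp [sigmaQ]
        · simp [evalL, sigmaQ, hp.out.ne_zero]
      rw [logC_succ_range, map_sum]
      have hterm : ∀ i ∈ Finset.range (m + 1),
          evalL (L := ℚ_[p]) (n := n) (fun _ => 0)
            (sc n p (i + 1) * sigmaQ n p (i + 1) (logC n p (m - i))) =
          if i + 1 = n then (p : ℚ_[p])⁻¹ *
            (if n ∣ m - i then ((p : ℚ_[p]) ^ ((m - i) / n))⁻¹ else 0) else 0 := by
        intro i hi
        rw [Finset.mem_range] at hi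
        rw [map_mul, hσ, ih (m - i) (by omega), sc, map_mul]
        have hv : evalL (L := ℚ_[p]) (n := n) (fun _ => 0) (iotaQ n (vv n (i + 1))) =
            if i + 1 = n then 1 else 0 := by
          unfold vv
          split_ifs <;> first | (exfalso; omega) | simp [evalL, iotaQ]
        rw [hv]
        split_ifs <;> simp [evalL]
      rw [Finset.sum_congr rfl hterm]
      rcases le_or_gt n (m + 1) with hle | hgt
      · rw [Finset.sum_eq_single (n - 1)]
        · rw [if_pos (by omega)]
          have e1 : m - (n - 1) = m + 1 - n := by omega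
          rw [e1]
          by_cases hd : n ∣ m + 1
          · obtain ⟨k, hk⟩ := hd
            obtain ⟨k, rfl⟩ : ∃ j, k = j + 1 := ⟨k - 1, by rcases k with _ | k <;> simp at hk ⊢⟩
            rw [hk, Nat.mul_succ, Nat.add_sub_cancel, if_pos (dvd_mul_right n k),
              if_pos (by rw [← Nat.mul_succ]; exact dvd_mul_right n _),
              Nat.mul_div_cancel_left k (by omega), ← Nat.mul_succ,
              Nat.mul_div_cancel_left _ (by omega), pow_succ, mul_inv, mul_comm]
          · rw [if_neg hd, if_neg, mul_zero]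
            intro hh
            apply hd
            have := Nat.dvd_add hh (dvd_refl n)
            rwa [Nat.sub_add_cancel hle] at this
        · intro b _ hb
          rw [if_neg (by omega)]
        · intro hh
          simp only [Finset.mem_range, not_lt] at hh
          omega
      · rw [Finset.sum_eq_zero, if_neg]
        · exact fun hh => absurd (Nat.le_of_dvd (by omega) hh) (by omega)
        · intro b hb
          rw [Finset.mem_range] at hb
          rw [if_neg (by omega)]

/-- The image of the law has the image of the logarithm. -/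
lemma log_map_FP {R L : Type} [CommRing R] [CommRing L] (x : PZ n →+* R) (θ : PQ n →+* L)
    {c : R →+* L} (hcomp : c.comp x = θ.comp (iotaQ n)) :
    PowerSeries.subst (((FP n p).map x).map c : MvPowerSeries (Fin 2) L)
        (PowerSeries.map θ (logS n p)) =
      PowerSeries.subst (MvPowerSeries.X (0 : Fin 2) : MvPowerSeries (Fin 2) L)
          (PowerSeries.map θ (logS n p)) +
        PowerSeries.subst (MvPowerSeries.X (1 : Fin 2) : MvPowerSeries (Fin 2) L)
          (PowerSeries.map θ (logS n p)) := by
  have e : (((FP n p).map x).map c : MvPowerSeries (Fin 2) L) =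
      MvPowerSeries.map θ (seriesQ n p) := by
    simp only [FormalGroup.map_toPowerSeries, FP, ← map_seriesZ, MvPowerSeries.map_map, hcomp]
  have hX : ∀ i : Fin 2, (MvPowerSeries.X i : MvPowerSeries (Fin 2) L) =
      MvPowerSeries.map θ (MvPowerSeries.X i : MvPowerSeries (Fin 2) (PQ n)) := fun i =>
    (MvPowerSeries.map_X θ i).symm
  rw [e, hX 0, hX 1, ← PowerSeries.map_subst (.of_constantCoeff_zero (constantCoeff_seriesQ n p)),
    ← PowerSeries.map_subst (PowerSeries.HasSubst.X (0 : Fin 2)),
    ← PowerSeries.map_subst (PowerSeries.HasSubst.X (1 : Fin 2)), ← map_add, seriesQ,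
    subst_subst_expS (constantCoeff_logSum n p)]
  rfl

lemma FE_honda (hn : 1 ≤ n) : IsHonda p n ((FE n p).map (res p n)) := by
  refine ⟨?_, (FP n p).map (evalZp n p), ?_,
    PowerSeries.map (evalL (L := ℚ_[p]) (n := n) fun _ => 0) (logS n p), fun N => ?_, ?_⟩
  · rw [← map_mulSeries, mulSeries_FE]
    ext e
    rw [PowerSeries.coeff_map, PowerSeries.coeff_map, PowerSeries.coeff_X_pow, ← res_toE_eps n]
    obtain ⟨c, hc⟩ := eps_mulSeries_honda (p := p) hn e
    rw [sub_eq_iff_eq_add] at hc
    rw [hc]
    have hp0 : (p : K p n) = 0 := CharP.cast_eq_zero _ p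
    simp only [map_add, map_mul, map_natCast, hp0, zero_mul, zero_add]
    split_ifs <;> simp
  · ext1
    simp only [FE, FormalGroup.map_toPowerSeries]
    rw [MvPowerSeries.map_map, MvPowerSeries.map_map, res_comp_toE]
  · rw [PowerSeries.coeff_map]
    by_cases hN : ∃ m, p ^ m = N
    · obtain ⟨m, rfl⟩ := hN
      rw [logS_coeff_pow, evalL_zero_logC hn]
      have hbound : m < p ^ m + 1 := by
        have := Nat.lt_pow_self (n := m) hp.out.one_lt
        omega
      by_cases hd : n ∣ m
      · obtain ⟨k, rfl⟩ := hd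
        rw [if_pos (dvd_mul_right n k), Nat.mul_div_cancel_left k (by omega),
          Finset.sum_eq_single k]
        · rw [if_pos (by rw [mul_comm])]
        · intro b _ hb
          rw [if_neg fun hh => hb ?_]
          have := Nat.pow_right_injective hp.out.two_le hh
          rw [mul_comm] at this
          exact Nat.eq_of_mul_eq_mul_left (by omega) this
        · intro hh
          simp only [Finset.mem_range, not_lt] at hh
          have : k ≤ n * k := Nat.le_mul_of_pos_left k (by omega)
          omega
      · rw [if_neg hd, Finset.sum_eq_zero]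
        intro b _
        rw [if_neg fun hh => hd ?_]
        rw [← Nat.pow_right_injective hp.out.two_le hh]
        exact dvd_mul_left n b
    · push Not at hN
      rw [logS_coeff_eq_zero hN, map_zero, Finset.sum_eq_zero]
      intro b _
      rw [if_neg (hN (b * n))]
  · have hcomp : PadicInt.Coe.ringHom.comp (evalZp n p) =
        (evalL (L := ℚ_[p]) (n := n) fun _ => 0).comp (iotaQ n) := by
      refine MvPolynomial.ringHom_ext (fun z => ?_) (fun j => ?_)
      · simp
      · simp [evalZp, evalL, iotaQ]
    exact log_map_FP _ _ hcomp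


end

end Vale.Agent.P217
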