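import Vale.Agent.P217.Defs

/-!
P217, module M1: power series over `ℚ[u]` with coefficients in `ℤ[u]`, and the functional
equation lemma for the Hazewinkel logarithm.
-/

set_option linter.unusedSectionVars false

namespace Vale.Agent.P217

noncomputable section

open MvPowerSeries

/-- The series with given coefficients. -/
def mkSeries {τ R : Type*} [Semiring R] (f : (τ →₀ ℕ) → R) : MvPowerSeries τ R := f

@[simp]
lemma coeff_mkSeries {τ R : Type*} [Semiring R] (f : (τ →₀ ℕ) → R) (e : τ →₀ ℕ) :
    coeff e (mkSeries f) = f e := by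
  rw [coeff_apply]; rfl

variable (n : ℕ)

/-- The coefficient ring `ℤ[u_1, ..., u_(n-1)]`. -/
abbrev PZ : Type := MvPolynomial (Fin (n - 1)) ℤ

/-- Its rationalisation. -/
abbrev PQ : Type := MvPolynomial (Fin (n - 1)) ℚ

/-- The inclusion `ℤ[u] → ℚ[u]`. -/
def iotaQ : PZ n →+* PQ n := MvPolynomial.map (Int.castRingHom ℚ)

lemma iotaQ_injective : Function.Injective (iotaQ n) :=
  MvPolynomial.map_injective _ Int.cast_injective

/-- The parameters, with `u_n = 1` and zero outside `1..n`. -/
def vv (i : ℕ) : PZ n :=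
  if h : 1 ≤ i ∧ i < n then MvPolynomial.X ⟨i - 1, by omega⟩ else if i = n then 1 else 0

variable (p : ℕ)

/-- Raising the parameters to the power `p ^ i`. -/
def sigmaQ (i : ℕ) : PQ n →+* PQ n := (MvPolynomial.expand (p ^ i) : PQ n →ₐ[ℚ] PQ n)

/-- Raising the parameters to the power `p ^ i`, integrally. -/
def sigmaZ (i : ℕ) : PZ n →+* PZ n := (MvPolynomial.expand (p ^ i) : PZ n →ₐ[ℤ] PZ n)

lemma sigmaQ_iotaQ (i : ℕ) (x : PZ n) : sigmaQ n p i (iotaQ n x) = iotaQ n (sigmaZ n p i x) :=
  (MvPolynomial.map_expand (f := Int.castRingHom ℚ) _ x).symm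

/-- The coefficient `u_i / p` of the functional equation. -/
def sc (i : ℕ) : PQ n := MvPolynomial.C (p : ℚ)⁻¹ * iotaQ n (vv n i)

/-- The coefficients of the Hazewinkel logarithm. -/
def logC : ℕ → PQ n
  | 0 => 1
  | m + 1 => ∑ i : Fin n, if _h : (i : ℕ) ≤ m then
      sc n p (i + 1) * sigmaQ n p (i + 1) (logC (m - i)) else 0

/-- The Hazewinkel logarithm. -/
def logS : PowerSeries (PQ n) :=
  PowerSeries.mk fun N => ∑ m ∈ Finset.range (N + 1), if p ^ m = N then logC n p m else 0

/-- All coefficients of the series are integral and divisible by `p ^ k`. -/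
def IntDvd (k : ℕ) {τ : Type*} (G : MvPowerSeries τ (PQ n)) : Prop :=
  ∀ e, ∃ c : PZ n, coeff e G = (p : PQ n) ^ k * iotaQ n c

variable {n p} [hp : Fact p.Prime] {τ : Type*}

lemma logS_coeff_pow (m : ℕ) : PowerSeries.coeff (p ^ m) (logS n p) = logC n p m := by
  rw [logS, PowerSeries.coeff_mk, Finset.sum_eq_single m]
  · simp
  · intro b _ hb
    rw [if_neg fun h => hb (Nat.pow_right_injective hp.out.two_le h)]
  · intro h
    exact absurd (Finset.mem_range.2 (Nat.lt_succ_of_le (Nat.lt_pow_self hp.out.one_lt).le)) h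

lemma logS_coeff_eq_zero {N : ℕ} (h : ∀ m, p ^ m ≠ N) :
    PowerSeries.coeff N (logS n p) = 0 := by
  rw [logS, PowerSeries.coeff_mk]
  exact Finset.sum_eq_zero fun m _ => if_neg (h m)

lemma logS_constantCoeff : PowerSeries.constantCoeff (logS n p) = 0 := by
  rw [← PowerSeries.coeff_zero_eq_constantCoeff_apply]
  exact logS_coeff_eq_zero fun m => pow_ne_zero m hp.out.ne_zero

lemma logS_coeff_one : PowerSeries.coeff 1 (logS n p) = 1 := by
  have := logS_coeff_pow (n := n) (p := p) 0
  rwa [pow_zero, logC] at this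

lemma sigmaQ_natCast (i k : ℕ) : sigmaQ n p i (k : PQ n) = (k : PQ n) := map_natCast _ _

lemma C_inv_mul_p : MvPolynomial.C (p : ℚ)⁻¹ * (p : PQ n) = 1 := by
  rw [← map_natCast (MvPolynomial.C : ℚ →+* PQ n), ← map_mul,
    inv_mul_cancel₀ (Nat.cast_ne_zero.2 hp.out.ne_zero), map_one]

lemma p_mul_sc (i : ℕ) : (p : PQ n) * sc n p i = iotaQ n (vv n i) := by
  rw [sc, ← mul_assoc, mul_comm (p : PQ n), C_inv_mul_p, one_mul]

/-- `p ^ m` clears the denominator of the `m`-th coefficient. -/
lemma logC_int (m : ℕ) : ∃ c : PZ n, (p : PQ n) ^ m * logC n p m = iotaQ n c := by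
  induction m using Nat.strong_induction_on with
  | _ m ih =>
    match m with
    | 0 => exact ⟨1, by simp [logC]⟩
    | m + 1 =>
      have h : ∀ i : Fin n, ∃ c : PZ n, (p : PQ n) ^ (m + 1) *
          (if h : (i : ℕ) ≤ m then sc n p (i + 1) * sigmaQ n p (i + 1) (logC n p (m - i))
            else 0) = iotaQ n c := by
        intro i
        split_ifs with h
        · obtain ⟨c, hc⟩ := ih (m - i) (by omega)
          refine ⟨vv n (i + 1) * sigmaZ n p (i + 1) c * (p : PZ n) ^ (i : ℕ), ?_⟩
          rw [map_mul, map_mul, ← sigmaQ_iotaQ, ← hc, map_mul, map_pow, sigmaQ_natCast, map_pow,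
            map_natCast, ← p_mul_sc (p := p)]
          have e : (p : PQ n) ^ (m + 1) = (p : PQ n) * (p : PQ n) ^ (i : ℕ) * (p : PQ n) ^ (m - i)
              := by
            rw [mul_assoc, ← pow_add, ← pow_succ']
            congr 1
            omega
          rw [e]
          ring
        · exact ⟨0, by simp⟩
      choose c hc using h
      refine ⟨∑ i, c i, ?_⟩
      rw [map_sum, logC, Finset.mul_sum]
      exact Finset.sum_congr rfl fun i _ => hc i

/-- The functional equation of the logarithm. -/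
lemma logS_eq : logS n p = PowerSeries.X + ∑ i : Fin n, PowerSeries.C (sc n p (i + 1)) *
    PowerSeries.expand (p ^ ((i : ℕ) + 1)) (pow_ne_zero _ hp.out.ne_zero)
      (PowerSeries.map (sigmaQ n p (i + 1)) (logS n p)) := by
  ext1 N
  simp only [map_add, map_sum, PowerSeries.coeff_C_mul, PowerSeries.coeff_expand,
    PowerSeries.coeff_map, PowerSeries.coeff_X]
  by_cases hN : ∃ m, p ^ m = N
  · obtain ⟨m, rfl⟩ := hN
    rw [logS_coeff_pow]
    match m with
    | 0 =>
      rw [Finset.sum_eq_zero, add_zero, pow_zero, if_pos rfl, logC]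
      intro i _
      rw [if_neg, mul_zero]
      intro h
      rw [pow_zero, Nat.dvd_one] at h
      exact absurd h (Nat.one_lt_pow (Nat.succ_ne_zero _) hp.out.one_lt).ne'
    | m + 1 =>
      rw [if_neg (Nat.one_lt_pow (Nat.succ_ne_zero _) hp.out.one_lt).ne', zero_add, logC]
      refine Finset.sum_congr rfl fun i _ => ?_
      by_cases h : (i : ℕ) ≤ m
      · rw [dif_pos h, if_pos (pow_dvd_pow p (by omega)),
          Nat.pow_div (by omega) hp.out.pos, show m + 1 - ((i : ℕ) + 1) = m - i by omega,
          logS_coeff_pow]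
      · rw [dif_neg h, if_neg, mul_zero]
        intro hd
        have := (Nat.pow_dvd_pow_iff_le_right hp.out.one_lt).1 hd
        omega
  · push Not at hN
    rw [logS_coeff_eq_zero hN, if_neg (fun h => hN 0 (by simp [h])), zero_add,
      Finset.sum_eq_zero]
    intro i _
    split_ifs with hd
    · rw [logS_coeff_eq_zero, map_zero, mul_zero]
      intro m hm
      refine hN (m + ((i : ℕ) + 1)) ?_
      rw [pow_add, hm, Nat.div_mul_cancel hd]
    · exact mul_zero _

/-! ### Integrality -/

lemma intDvd_zero (k : ℕ) : IntDvd n p k (0 : MvPowerSeries τ (PQ n)) := fun e => ⟨0, by simp⟩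

lemma IntDvd.add {k : ℕ} {G H : MvPowerSeries τ (PQ n)} (hG : IntDvd n p k G)
    (hH : IntDvd n p k H) : IntDvd n p k (G + H) := fun e => by
  obtain ⟨a, ha⟩ := hG e
  obtain ⟨b, hb⟩ := hH e
  exact ⟨a + b, by rw [map_add, map_add, ha, hb, mul_add]⟩

lemma IntDvd.neg {k : ℕ} {G : MvPowerSeries τ (PQ n)} (hG : IntDvd n p k G) :
    IntDvd n p k (-G) := fun e => by
  obtain ⟨a, ha⟩ := hG e
  exact ⟨-a, by rw [map_neg, map_neg, ha, mul_neg]⟩

lemma intDvd_map (G : MvPowerSeries τ (PZ n)) : IntDvd n p 0 (map (iotaQ n) G) := fun e =>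
  ⟨coeff e G, by simp⟩

lemma IntDvd.exists_map {G : MvPowerSeries τ (PQ n)} (hG : IntDvd n p 0 G) :
    ∃ H : MvPowerSeries τ (PZ n), map (iotaQ n) H = G := by
  choose c hc using hG
  exact ⟨mkSeries c, by ext1 e; rw [coeff_map, hc e, coeff_mkSeries]; simp⟩

lemma dvd_iff_coeff {k : ℕ} {G : MvPowerSeries τ (PZ n)} :
    (p : MvPowerSeries τ (PZ n)) ^ k ∣ G ↔ ∀ e, (p : PZ n) ^ k ∣ coeff e G := by
  have e : (p : MvPowerSeries τ (PZ n)) ^ k = C ((p : PZ n) ^ k) := by
    rw [map_pow, map_natCast]
  rw [e]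
  constructor
  · rintro ⟨H, rfl⟩ d
    exact ⟨coeff d H, coeff_C_mul _ _ _⟩
  · intro h
    choose c hc using h
    exact ⟨mkSeries c, by ext1 d; rw [coeff_C_mul, hc d, coeff_mkSeries]⟩

lemma intDvd_map_of_dvd {k : ℕ} {G : MvPowerSeries τ (PZ n)}
    (h : (p : MvPowerSeries τ (PZ n)) ^ k ∣ G) : IntDvd n p k (map (iotaQ n) G) := fun e => by
  obtain ⟨c, hc⟩ := dvd_iff_coeff.1 h e
  exact ⟨c, by rw [coeff_map, hc, map_mul, map_pow, map_natCast]⟩

/-- Raising to a `p`-power is the twisted expansion modulo `p`. -/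
lemma dvd_expand_sigma_sub_pow (i : ℕ) (G : MvPowerSeries τ (PZ n)) :
    (p : MvPowerSeries τ (PZ n)) ∣
      expand (p ^ i) (pow_ne_zero _ hp.out.ne_zero) (map (sigmaZ n p i) G) - G ^ p ^ i := by
  set r : PZ n →+* MvPolynomial (Fin (n - 1)) (ZMod p) :=
    MvPolynomial.map (Int.castRingHom (ZMod p)) with hr
  have : ExpChar (MvPolynomial (Fin (n - 1)) (ZMod p)) p := ExpChar.prime hp.out
  have hrs : r.comp (sigmaZ n p i) =
      (iterateFrobenius (MvPolynomial (Fin (n - 1)) (ZMod p)) p i).comp r := by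
    refine MvPolynomial.ringHom_ext (fun z => ?_) (fun j => ?_)
    · simp [hr, sigmaZ]
    · simp [hr, sigmaZ, iterateFrobenius_def]
  have h0 : map r (expand (p ^ i) (pow_ne_zero _ hp.out.ne_zero) (map (sigmaZ n p i) G) -
      G ^ p ^ i) = 0 := by
    rw [map_sub, map_pow, map_expand, map_map, hrs, ← map_map, ← map_expand,
      map_iterateFrobenius_expand p hp.out.ne_zero, sub_self]
  have := (dvd_iff_coeff (p := p) (k := 1)
    (G := expand (p ^ i) (pow_ne_zero _ hp.out.ne_zero) (map (sigmaZ n p i) G) - G ^ p ^ i)).2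
    fun e => by
      rw [pow_one, ← map_natCast (MvPolynomial.C : ℤ →+* PZ n), MvPolynomial.C_dvd_iff_map_hom_eq_zero
        (Int.castRingHom (ZMod p)) (p : ℤ) fun z => (ZMod.intCast_zmod_eq_zero_iff_dvd z p)]
      have h1 := congrArg (coeff e) h0
      rwa [coeff_map, map_zero] at h1
  rwa [pow_one] at this

/-- Coefficient of a logarithm applied to a series, as a sum. -/
lemma coeff_subst_sub {G H : MvPowerSeries τ (PQ n)} (hG : PowerSeries.HasSubst G)
    (hH : PowerSeries.HasSubst H) (φ : PowerSeries (PQ n)) (e : τ →₀ ℕ) :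
    coeff e (PowerSeries.subst G φ - PowerSeries.subst H φ) =
      ∑ᶠ d, PowerSeries.coeff d φ * coeff e (G ^ d - H ^ d) := by
  rw [map_sub, PowerSeries.coeff_subst hG, PowerSeries.coeff_subst hH,
    ← finsum_sub_distrib (PowerSeries.coeff_subst_finite hG φ e)
      (PowerSeries.coeff_subst_finite hH φ e)]
  exact finsum_congr fun d => by simp [mul_sub]

lemma finsum_mem_iota {α : Type*} (f : α → PQ n) (h : ∀ a, ∃ c, f a = (p : PQ n) * iotaQ n c) :
    ∃ c, ∑ᶠ a, f a = (p : PQ n) * iotaQ n c := by
  classical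
  by_cases hf : (Function.support f).Finite
  · rw [finsum_eq_sum f hf]
    choose c hc using h
    exact ⟨∑ a ∈ hf.toFinset, c a, by simp [hc, Finset.mul_sum]⟩
  · exact ⟨0, by simp [finsum_of_infinite_support hf]⟩

/-- **Congruence lemma.** Congruent integral series have congruent logarithms, also for twisted
logarithms. -/
lemma log_congr {θQ : PQ n →+* PQ n} {θZ : PZ n →+* PZ n}
    (hθ : ∀ x, θQ (iotaQ n x) = iotaQ n (θZ x)) {G H : MvPowerSeries τ (PZ n)}
    (hG : constantCoeff G = 0) (hH : constantCoeff H = 0)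
    (h : (p : MvPowerSeries τ (PZ n)) ∣ G - H) :
    IntDvd n p 1 (PowerSeries.subst (map (iotaQ n) G) (PowerSeries.map θQ (logS n p)) -
      PowerSeries.subst (map (iotaQ n) H) (PowerSeries.map θQ (logS n p))) := by
  intro e
  rw [pow_one, coeff_subst_sub (.of_constantCoeff_zero (by simp [hG]))
    (.of_constantCoeff_zero (by simp [hH]))]
  refine finsum_mem_iota _ fun d => ?_
  by_cases hd : ∃ m, p ^ m = d
  · obtain ⟨m, rfl⟩ := hd
    obtain ⟨c, hc⟩ := logC_int (n := n) (p := p) m
    obtain ⟨c', hc'⟩ := intDvd_map_of_dvd (n := n) (dvd_sub_pow_of_dvd_sub h m) e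
    rw [PowerSeries.coeff_map, logS_coeff_pow, ← map_pow, ← map_pow, ← map_sub, hc']
    refine ⟨θZ c * c', ?_⟩
    rw [map_mul, ← hθ, ← hc, map_mul, map_pow θQ, map_natCast, pow_succ]
    ring
  · push Not at hd
    exact ⟨0, by simp [logS_coeff_eq_zero hd]⟩

/-- Series agreeing below degree `N`. -/
def AgreeLT (N : ℕ) (G H : MvPowerSeries τ (PQ n)) : Prop :=
  ∀ e, e.degree < N → coeff e G = coeff e H

lemma agreeLT_iff {N : ℕ} {G H : MvPowerSeries τ (PQ n)} :
    AgreeLT N G H ↔ (N : ℕ∞) ≤ (G - H).order := by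
  constructor
  · exact fun h => nat_le_order fun e he => by rw [map_sub, h e he, sub_self]
  · intro h e he
    refine sub_eq_zero.1 ?_
    rw [← map_sub]
    exact coeff_of_lt_order (lt_of_lt_of_le (by exact_mod_cast he) h)

lemma AgreeLT.pow {N : ℕ} {G H : MvPowerSeries τ (PQ n)} (h : AgreeLT N G H) (k : ℕ) :
    AgreeLT N (G ^ k) (H ^ k) := by
  rw [agreeLT_iff] at h ⊢
  obtain ⟨c, hc⟩ := sub_dvd_pow_sub_pow G H k
  rw [hc]
  exact le_trans h (le_trans le_self_add le_order_mul)

lemma AgreeLT.pow_succ' {N : ℕ} {G H : MvPowerSeries τ (PQ n)} (h : AgreeLT N G H)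
    (hG : constantCoeff G = 0) (hH : constantCoeff H = 0) {k : ℕ} (hk : 2 ≤ k) :
    AgreeLT (N + 1) (G ^ k) (H ^ k) := by
  rw [agreeLT_iff] at h ⊢
  rw [← geom_sum₂_mul, mul_comm]
  refine le_trans ?_ le_order_mul
  push_cast
  refine add_le_add h (one_le_order_iff_constCoeff_eq_zero.2 ?_)
  rw [map_sum]
  refine Finset.sum_eq_zero fun j hj => ?_
  rcases Nat.eq_zero_or_pos j with rfl | hj0
  · simp [hH, show k - 1 ≠ 0 by omega]
  · simp [hG, hj0.ne']

lemma AgreeLT.subst {N : ℕ} {G H : MvPowerSeries τ (PQ n)} (h : AgreeLT N G H)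
    (hG : constantCoeff G = 0) (hH : constantCoeff H = 0) (φ : PowerSeries (PQ n)) :
    AgreeLT N (PowerSeries.subst G φ) (PowerSeries.subst H φ) := by
  intro e he
  rw [PowerSeries.coeff_subst (.of_constantCoeff_zero hG),
    PowerSeries.coeff_subst (.of_constantCoeff_zero hH)]
  exact finsum_congr fun d => by rw [h.pow d e he]

lemma subst_logS {G : MvPowerSeries τ (PQ n)} (hG : constantCoeff G = 0) :
    PowerSeries.subst G (logS n p) = G + ∑ i : Fin n, C (sc n p (i + 1)) *
      PowerSeries.subst (G ^ p ^ ((i : ℕ) + 1))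
        (PowerSeries.map (sigmaQ n p (i + 1)) (logS n p)) := by
  have ha : PowerSeries.HasSubst G := .of_constantCoeff_zero hG
  conv_lhs => rw [logS_eq, PowerSeries.subst_add ha, PowerSeries.subst_X ha,
    ← PowerSeries.coe_substAlgHom ha, map_sum]
  congr 1
  refine Finset.sum_congr rfl fun i _ => ?_
  rw [PowerSeries.coe_substAlgHom ha, PowerSeries.subst_mul ha, PowerSeries.subst_C,
    PowerSeries.expand_apply, PowerSeries.subst_comp_subst_apply
      (PowerSeries.HasSubst.X_pow (pow_ne_zero _ hp.out.ne_zero)) ha,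
    PowerSeries.subst_pow ha, PowerSeries.subst_X ha]

/-- The functional-equation defect of a series. -/
def defect (L : MvPowerSeries τ (PQ n)) : MvPowerSeries τ (PQ n) :=
  L - ∑ i : Fin n, C (sc n p (i + 1)) *
    expand (p ^ ((i : ℕ) + 1)) (pow_ne_zero _ hp.out.ne_zero) (map (sigmaQ n p (i + 1)) L)

lemma coeff_expand_congr {q : ℕ} (hq : 2 ≤ q) {N : ℕ} (hN : 1 ≤ N)
    {G H : MvPowerSeries τ (PQ n)} (h : AgreeLT N G H) :
    AgreeLT (N + 1) (expand q (by omega) G) (expand q (by omega) H) := by
  rw [agreeLT_iff] at h ⊢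
  rw [← map_sub, order_expand, nsmul_eq_mul]
  calc ((N + 1 : ℕ) : ℕ∞) ≤ ((q * N : ℕ) : ℕ∞) := by
        exact_mod_cast le_trans (by omega : N + 1 ≤ 2 * N) (Nat.mul_le_mul_right N hq)
    _ ≤ (q : ℕ∞) * (G - H).order := by push_cast; exact mul_le_mul' le_rfl h

/-- **Functional equation lemma.** A series whose logarithm has integral defect is integral. -/
theorem intDvd_of_defect {g : MvPowerSeries τ (PQ n)} (hg : constantCoeff g = 0)
    (h : IntDvd n p 0 (defect (p := p) (PowerSeries.subst g (logS n p)))) : IntDvd n p 0 g := by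
  suffices ∀ N, ∀ e : τ →₀ ℕ, e.degree < N → ∃ c, coeff e g = iotaQ n c by
    intro e
    obtain ⟨c, hc⟩ := this (e.degree + 1) e (Nat.lt_succ_self _)
    exact ⟨c, by simpa using hc⟩
  intro N
  induction N with
  | zero => intro e he; omega
  | succ N ih =>
    intro e he
    classical
    rcases Nat.eq_zero_or_pos e.degree with h0 | h0
    · rw [(Finsupp.degree_eq_zero_iff e).1 h0, coeff_zero_eq_constantCoeff_apply, hg]
      exact ⟨0, (map_zero _).symm⟩
    -- the integral truncation below degree `N`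
    choose c hc using ih
    set g₀ : MvPowerSeries τ (PZ n) :=
      mkSeries fun d => if h : d.degree < N then c d h else 0 with hg₀
    set g' := map (iotaQ n) g₀ with hg'
    have hagree : AgreeLT N g g' := fun d hd => by
      rw [hg', coeff_map, hc d hd]
      simp [hg₀, hd]
    have hg₀0 : constantCoeff g₀ = 0 := by
      apply iotaQ_injective n
      rw [map_zero, ← coeff_zero_eq_constantCoeff_apply, ← coeff_map]
      rcases Nat.eq_zero_or_pos N with rfl | hN
      · simp [hg₀]
      · rw [← hg', ← hagree 0 (by simpa using hN), coeff_zero_eq_constantCoeff_apply, hg]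
    have hg'0 : constantCoeff g' = 0 := by simp [hg', hg₀0]
    have key : coeff e g - coeff e (defect (p := p) (PowerSeries.subst g (logS n p))) =
        ∑ i : Fin n, sc n p (i + 1) * coeff e
          (expand (p ^ ((i : ℕ) + 1)) (pow_ne_zero _ hp.out.ne_zero)
              (map (sigmaQ n p (i + 1)) (PowerSeries.subst g (logS n p))) -
            PowerSeries.subst (g ^ p ^ ((i : ℕ) + 1))
              (PowerSeries.map (sigmaQ n p (i + 1)) (logS n p))) := by
      have e1 := congrArg (coeff e) (subst_logS (p := p) hg)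
      simp only [map_add, map_sum, coeff_C_mul] at e1
      simp only [defect, map_sub, map_sum, coeff_C_mul, mul_sub, Finset.sum_sub_distrib]
      rw [e1]
      ring
    have hterm : ∀ i : Fin n, ∃ c : PZ n, sc n p (i + 1) * coeff e
          (expand (p ^ ((i : ℕ) + 1)) (pow_ne_zero _ hp.out.ne_zero)
              (map (sigmaQ n p (i + 1)) (PowerSeries.subst g (logS n p))) -
            PowerSeries.subst (g ^ p ^ ((i : ℕ) + 1))
              (PowerSeries.map (sigmaQ n p (i + 1)) (logS n p))) = iotaQ n c := by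
      intro i
      set q := p ^ ((i : ℕ) + 1) with hq
      have hq2 : 2 ≤ q := le_trans hp.out.two_le (Nat.le_self_pow (Nat.succ_ne_zero _) p)
      set φ := PowerSeries.map (sigmaQ n p (i + 1)) (logS n p) with hφ
      have hs1 : PowerSeries.HasSubst g := .of_constantCoeff_zero hg
      have hs2 : PowerSeries.HasSubst g' := .of_constantCoeff_zero hg'0
      have A : coeff e (expand q (by omega) (map (sigmaQ n p (i + 1))
            (PowerSeries.subst g (logS n p)))) =
          coeff e (PowerSeries.subst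
            (map (iotaQ n) (expand q (by omega) (map (sigmaZ n p (i + 1)) g₀))) φ) := by
        have e2 : PowerSeries.subst
            (map (iotaQ n) (expand q (by omega) (map (sigmaZ n p (i + 1)) g₀))) φ =
            expand q (by omega) (map (sigmaQ n p (i + 1))
              (PowerSeries.subst g' (logS n p))) := by
          rw [map_expand, PowerSeries.map_subst hs2, map_map,
            show (iotaQ n).comp (sigmaZ n p (i + 1)) = (sigmaQ n p (i + 1)).comp (iotaQ n) from
              RingHom.ext fun x => (sigmaQ_iotaQ n p _ x).symm,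
            ← map_map, ← hg',
            PowerSeries.expand_subst q (by omega) (.of_constantCoeff_zero (by simp [hg'0]))]
        rw [e2]
        rcases Nat.eq_zero_or_pos N with rfl | hN
        · omega
        refine coeff_expand_congr hq2 hN (fun d hd => ?_) e (by omega)
        rw [coeff_map, coeff_map, hagree.subst hg hg'0 _ d hd]
      have B : coeff e (PowerSeries.subst (g ^ q) φ) =
          coeff e (PowerSeries.subst (map (iotaQ n) (g₀ ^ q)) φ) := by
        rw [map_pow]
        exact (hagree.pow_succ' hg hg'0 hq2).subst (by simp [hg, show q ≠ 0 by omega])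
          (by simp [hg'0, show q ≠ 0 by omega]) φ e (by omega)
      obtain ⟨c, hc⟩ := log_congr (p := p) (sigmaQ_iotaQ n p ((i : ℕ) + 1))
        (G := expand q (by omega) (map (sigmaZ n p (i + 1)) g₀)) (H := g₀ ^ q)
        (by simp [hg₀0]) (by simp [hg₀0, show q ≠ 0 by omega])
        (dvd_expand_sigma_sub_pow (n := n) ((i : ℕ) + 1) g₀) e
      refine ⟨vv n (i + 1) * c, ?_⟩
      rw [map_sub, A, B, ← map_sub, hc, pow_one, map_mul, ← p_mul_sc (p := p)]
      ring
    choose c' hc' using hterm
    obtain ⟨b, hb⟩ := h e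
    refine ⟨b + ∑ i, c' i, ?_⟩
    rw [map_add, map_sum, ← Finset.sum_congr rfl fun i _ => hc' i, ← key, hb, pow_zero, one_mul]
    ring

/-- The functional equation after applying an endomorphism to the coefficients. -/
lemma subst_map_logS (θQ : PQ n →+* PQ n) {G : MvPowerSeries τ (PQ n)}
    (hG : constantCoeff G = 0) :
    PowerSeries.subst G (PowerSeries.map θQ (logS n p)) =
      G + ∑ i : Fin n, C (θQ (sc n p (i + 1))) * PowerSeries.subst (G ^ p ^ ((i : ℕ) + 1))
        (PowerSeries.map (θQ.comp (sigmaQ n p (i + 1))) (logS n p)) := by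
  have ha : PowerSeries.HasSubst G := .of_constantCoeff_zero hG
  conv_lhs => rw [logS_eq]
  simp only [map_add, map_sum, map_mul, PowerSeries.map_C, PowerSeries.map_X,
    PowerSeries.map_expand]
  rw [PowerSeries.subst_add ha, PowerSeries.subst_X ha, ← PowerSeries.coe_substAlgHom ha, map_sum]
  congr 1
  refine Finset.sum_congr rfl fun i _ => ?_
  rw [PowerSeries.coe_substAlgHom ha, PowerSeries.subst_mul ha, PowerSeries.subst_C,
    PowerSeries.expand_apply, PowerSeries.subst_comp_subst_apply
      (PowerSeries.HasSubst.X_pow (pow_ne_zero _ hp.out.ne_zero)) ha,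
    PowerSeries.subst_pow ha, PowerSeries.subst_X ha, PowerSeries.map_comp]
  rfl

/-- **Converse congruence.** If the logarithms are congruent up to degree `N`, so are the
series. -/
theorem congr_of_log {θQ : PQ n →+* PQ n} {θZ : PZ n →+* PZ n}
    (hθ : ∀ x, θQ (iotaQ n x) = iotaQ n (θZ x)) {G H : MvPowerSeries τ (PZ n)}
    (hG : constantCoeff G = 0) (hH : constantCoeff H = 0) {N : ℕ}
    (h : ∀ e : τ →₀ ℕ, e.degree ≤ N → ∃ c, coeff e
      (PowerSeries.subst (map (iotaQ n) G) (PowerSeries.map θQ (logS n p)) -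
        PowerSeries.subst (map (iotaQ n) H) (PowerSeries.map θQ (logS n p))) =
          (p : PQ n) * iotaQ n c) :
    ∀ e : τ →₀ ℕ, e.degree ≤ N → (p : PZ n) ∣ coeff e G - coeff e H := by
  suffices ∀ M, M ≤ N + 1 → ∀ e : τ →₀ ℕ, e.degree < M → (p : PZ n) ∣ coeff e G - coeff e H from
    fun e he => this (N + 1) le_rfl e (by omega)
  intro M
  induction M with
  | zero => intro _ e he; omega
  | succ M ih =>
    intro hM e he
    classical
    have ih := ih (by omega)
    rcases Nat.eq_zero_or_pos e.degree with h0 | h0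
    · rw [(Finsupp.degree_eq_zero_iff e).1 h0, coeff_zero_eq_constantCoeff_apply,
        coeff_zero_eq_constantCoeff_apply, hG, hH, sub_zero]
      exact dvd_zero _
    -- `H` corrected to agree with `G` below degree `M`
    set G' : MvPowerSeries τ (PZ n) :=
      mkSeries fun d => if d.degree < M then coeff d H else coeff d G with hG'
    have hcong : (p : MvPowerSeries τ (PZ n)) ∣ G - G' := by
      have := (dvd_iff_coeff (p := p) (k := 1) (G := G - G')).2 fun d => by
        rw [pow_one, map_sub]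
        simp only [hG', coeff_mkSeries]
        split_ifs with hd
        · exact ih d hd
        · simp
      rwa [pow_one] at this
    have hG'0 : constantCoeff G' = 0 := by
      rw [← coeff_zero_eq_constantCoeff_apply]
      simp [hG', hG, hH]
    obtain ⟨c₁, h1⟩ := h e (by omega)
    obtain ⟨c₂, h2⟩ := log_congr (p := p) hθ hG hG'0 hcong e
    rw [pow_one] at h2
    simp only [map_sub] at h1 h2
    have hag : AgreeLT M (map (iotaQ n) G') (map (iotaQ n) H) := fun d hd => by
      rw [coeff_map, coeff_map]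
      simp [hG', hd]
    have h3 := congrArg (coeff e) (subst_map_logS (p := p) θQ (G := map (iotaQ n) G') (by simp [hG'0]))
    have h4 := congrArg (coeff e) (subst_map_logS (p := p) θQ (G := map (iotaQ n) H) (by simp [hH]))
    simp only [map_add, map_sum, coeff_C_mul, coeff_map] at h3 h4
    have hsum : ∀ i : Fin n, coeff e (PowerSeries.subst
          (map (iotaQ n) G' ^ p ^ ((i : ℕ) + 1))
          (PowerSeries.map (θQ.comp (sigmaQ n p (i + 1))) (logS n p))) =
        coeff e (PowerSeries.subst (map (iotaQ n) H ^ p ^ ((i : ℕ) + 1))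
          (PowerSeries.map (θQ.comp (sigmaQ n p (i + 1))) (logS n p))) := by
      intro i
      have hq2 : 2 ≤ p ^ ((i : ℕ) + 1) :=
        le_trans hp.out.two_le (Nat.le_self_pow (Nat.succ_ne_zero _) p)
      exact (hag.pow_succ' (by simp [hG'0]) (by simp [hH]) hq2).subst
        (by simp [hG'0, hp.out.ne_zero]) (by simp [hH, hp.out.ne_zero]) _ e (by omega)
    simp only [hsum] at h3
    rcases lt_or_ge e.degree M with hlt | hge
    · exact ih e hlt
    refine ⟨c₁ - c₂, iotaQ_injective n ?_⟩
    have hGe : coeff e G' = coeff e G := by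
      simp [hG', not_lt.2 hge]
    rw [hGe] at h3
    rw [map_sub, map_mul, map_sub, map_natCast]
    linear_combination h1 - h2 - h3 + h4

end

end Vale.Agent.P217
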