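import Vale.Agent.P217.Fgl.Integral

/-!
P217, module M1: the universal p-typical formal group law with Hazewinkel parameters.
-/

set_option linter.unusedSectionVars false

namespace Vale.Agent.P217

noncomputable section

open MvPowerSeries

variable {n p : ℕ} [hp : Fact p.Prime] {τ : Type*}

lemma isUnit_coeff_one_logS : IsUnit (PowerSeries.coeff 1 (logS n p)) := by
  rw [logS_coeff_one]; exact isUnit_one

/-- The inverse series of the logarithm. -/
def expS (n p : ℕ) [Fact p.Prime] : PowerSeries (PQ n) :=
  (logS n p).substInvOfIsUnit isUnit_coeff_one_logS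

lemma expS_constantCoeff : PowerSeries.constantCoeff (expS n p) = 0 :=
  PowerSeries.constantCoeff_substInvOfIsUnit _ _

lemma expS_coeff_one : PowerSeries.coeff 1 (expS n p) = 1 := by
  rw [expS, PowerSeries.coeff_one_substInvOfIsUnit]
  · simp [logS_coeff_one]

lemma subst_expS_right : PowerSeries.subst (expS n p) (logS n p) = PowerSeries.X :=
  PowerSeries.subst_substInvOfIsUnit_right _ logS_constantCoeff _

lemma subst_expS_left : PowerSeries.subst (logS n p) (expS n p) = PowerSeries.X :=
  PowerSeries.subst_substInvOfIsUnit_left _ logS_constantCoeff _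

lemma constantCoeff_subst_expS {T : MvPowerSeries τ (PQ n)} (hT : constantCoeff T = 0) :
    constantCoeff (PowerSeries.subst T (expS n p)) = 0 :=
  PowerSeries.constantCoeff_subst_eq_zero hT _ expS_constantCoeff

lemma subst_subst_expS {T : MvPowerSeries τ (PQ n)} (hT : constantCoeff T = 0) :
    PowerSeries.subst (PowerSeries.subst T (expS n p)) (logS n p) = T := by
  rw [← PowerSeries.subst_comp_subst_apply (PowerSeries.HasSubst.of_constantCoeff_zero
    (by exact expS_constantCoeff)) (.of_constantCoeff_zero hT), subst_expS_right,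
    PowerSeries.subst_X (.of_constantCoeff_zero hT)]

/-- The logarithm is injective on series without constant term. -/
lemma subst_logS_injective {A B : MvPowerSeries τ (PQ n)} (hA : constantCoeff A = 0)
    (hB : constantCoeff B = 0)
    (h : PowerSeries.subst A (logS n p) = PowerSeries.subst B (logS n p)) : A = B := by
  have key : ∀ {C : MvPowerSeries τ (PQ n)}, constantCoeff C = 0 →
      PowerSeries.subst (PowerSeries.subst C (logS n p)) (expS n p) = C := fun {C} hC => by
    rw [← PowerSeries.subst_comp_subst_apply (PowerSeries.HasSubst.of_constantCoeff_zero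
      (by exact logS_constantCoeff)) (.of_constantCoeff_zero hC), subst_expS_left,
      PowerSeries.subst_X (.of_constantCoeff_zero hC)]
  rw [← key hA, ← key hB, h]

/-- The defect of the logarithm of an integral series `A` vanishing at `0` and fixed by the
twisted expansion is `A` itself. -/
lemma defect_log_of_pow {A : MvPowerSeries τ (PQ n)} (hA : constantCoeff A = 0)
    (hfix : ∀ i : Fin n, expand (p ^ ((i : ℕ) + 1)) (pow_ne_zero _ hp.out.ne_zero)
      (map (sigmaQ n p (i + 1)) A) = A ^ p ^ ((i : ℕ) + 1)) :
    defect (p := p) (PowerSeries.subst A (logS n p)) = A := by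
  have e : ∀ i : Fin n, expand (p ^ ((i : ℕ) + 1)) (pow_ne_zero _ hp.out.ne_zero)
      (map (sigmaQ n p (i + 1)) (PowerSeries.subst A (logS n p))) =
      PowerSeries.subst (A ^ p ^ ((i : ℕ) + 1))
        (PowerSeries.map (sigmaQ n p (i + 1)) (logS n p)) := by
    intro i
    rw [PowerSeries.map_subst (.of_constantCoeff_zero hA),
      PowerSeries.expand_subst _ _ (.of_constantCoeff_zero (by simp [hA])), hfix]
  simp only [defect, e]
  rw [subst_logS hA]
  abel

lemma defect_add (A B : MvPowerSeries τ (PQ n)) :
    defect (p := p) (A + B) = defect (p := p) A + defect (p := p) B := by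
  simp only [defect, map_add, mul_add, Finset.sum_add_distrib]
  abel

variable (n p)

/-- The sum of the logarithms of the two variables. -/
def logSum : MvPowerSeries (Fin 2) (PQ n) :=
  PowerSeries.subst (X 0 : MvPowerSeries (Fin 2) (PQ n)) (logS n p) +
    PowerSeries.subst (X 1 : MvPowerSeries (Fin 2) (PQ n)) (logS n p)

lemma constantCoeff_logSum : constantCoeff (logSum n p) = 0 := by
  rw [logSum, map_add, PowerSeries.constantCoeff_subst_eq_zero (constantCoeff_X 0) _
    logS_constantCoeff, PowerSeries.constantCoeff_subst_eq_zero (constantCoeff_X 1) _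
    logS_constantCoeff, add_zero]

/-- The law over `ℚ[u]`. -/
def seriesQ : MvPowerSeries (Fin 2) (PQ n) := PowerSeries.subst (logSum n p) (expS n p)

lemma constantCoeff_seriesQ : constantCoeff (seriesQ n p) = 0 :=
  constantCoeff_subst_expS (constantCoeff_logSum n p)

lemma seriesQ_integral : IntDvd n p 0 (seriesQ n p) := by
  refine intDvd_of_defect (constantCoeff_seriesQ n p) ?_
  rw [seriesQ, subst_subst_expS (constantCoeff_logSum n p), logSum, defect_add,
    defect_log_of_pow (constantCoeff_X 0) (fun i => by simp),
    defect_log_of_pow (constantCoeff_X 1) (fun i => by simp)]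
  have := intDvd_map (n := n) (p := p) (X (0 : Fin 2) + X 1 : MvPowerSeries (Fin 2) (PZ n))
  rwa [map_add, map_X, map_X] at this

variable {n p} in
lemma map_iotaQ_injective :
    Function.Injective (map (iotaQ n) : MvPowerSeries τ (PZ n) → MvPowerSeries τ (PQ n)) :=
  fun A B h => by
    ext1 e
    apply iotaQ_injective n
    simpa using congrArg (coeff e) h

/-- The law over `ℤ[u]`. -/
def seriesZ : MvPowerSeries (Fin 2) (PZ n) := (seriesQ_integral n p).exists_map.choose

lemma map_seriesZ : map (iotaQ n) (seriesZ n p) = seriesQ n p :=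
  (seriesQ_integral n p).exists_map.choose_spec

lemma constantCoeff_seriesZ : constantCoeff (seriesZ n p) = 0 := by
  apply iotaQ_injective n
  rw [map_zero, ← constantCoeff_map, map_seriesZ, constantCoeff_seriesQ]

variable {n p}

/-- The logarithm turns the law into addition. -/
lemma log_add {A B : MvPowerSeries τ (PQ n)} (hA : constantCoeff A = 0)
    (hB : constantCoeff B = 0) :
    PowerSeries.subst (subst ![A, B] (seriesQ n p)) (logS n p) =
      PowerSeries.subst A (logS n p) + PowerSeries.subst B (logS n p) := by
  have hAB : HasSubst ![A, B] :=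
    hasSubst_of_constantCoeff_zero fun i => by fin_cases i <;> simp [hA, hB]
  have h0 : PowerSeries.HasSubst (seriesQ n p) :=
    .of_constantCoeff_zero (constantCoeff_seriesQ n p)
  have e : PowerSeries.subst (subst ![A, B] (seriesQ n p)) (logS n p) =
      subst ![A, B] (PowerSeries.subst (seriesQ n p) (logS n p)) := by
    simp only [PowerSeries.subst]
    rw [subst_comp_subst_apply h0.const hAB]
  rw [e, seriesQ, subst_subst_expS (constantCoeff_logSum n p), logSum, subst_add hAB]
  simp only [PowerSeries.subst]
  rw [subst_comp_subst_apply (PowerSeries.HasSubst.X (0 : Fin 2)).const hAB,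
    subst_comp_subst_apply (PowerSeries.HasSubst.X (1 : Fin 2)).const hAB,
    subst_X hAB, subst_X hAB]
  simp

lemma constantCoeff_subst_seriesQ {A B : MvPowerSeries τ (PQ n)} (hA : constantCoeff A = 0)
    (hB : constantCoeff B = 0) : constantCoeff (subst ![A, B] (seriesQ n p)) = 0 :=
  constantCoeff_subst_eq_zero
    (hasSubst_of_constantCoeff_zero fun i => by fin_cases i <;> simp [hA, hB])
    (fun i => by fin_cases i <;> simp [hA, hB]) (constantCoeff_seriesQ n p)

lemma map_subst_seriesZ {A B : MvPowerSeries τ (PZ n)} (hA : constantCoeff A = 0)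
    (hB : constantCoeff B = 0) :
    map (iotaQ n) (subst ![A, B] (seriesZ n p)) =
      subst ![map (iotaQ n) A, map (iotaQ n) B] (seriesQ n p) := by
  rw [map_subst (hasSubst_of_constantCoeff_zero fun i => by fin_cases i <;> simp [hA, hB]),
    map_seriesZ]
  congr 1
  funext i
  fin_cases i <;> simp

lemma seriesZ_lin (i : Fin 2) : coeff (Finsupp.single i 1) (seriesZ n p) = 1 := by
  apply iotaQ_injective n
  rw [← coeff_map, map_seriesZ, map_one]
  have h := congrArg (coeff (Finsupp.single i 1))
    (subst_logS (p := p) (constantCoeff_seriesQ n p))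
  rw [seriesQ, subst_subst_expS (constantCoeff_logSum n p), ← seriesQ] at h
  simp only [map_add, map_sum, coeff_C_mul] at h
  have hzero : ∀ (A : MvPowerSeries (Fin 2) (PQ n)), constantCoeff A = 0 → ∀ k : Fin n,
      coeff (Finsupp.single i 1) (PowerSeries.subst (A ^ p ^ ((k : ℕ) + 1))
        (PowerSeries.map (sigmaQ n p (k + 1)) (logS n p))) = 0 := by
    intro A hA k
    have hq : 2 ≤ p ^ ((k : ℕ) + 1) :=
      le_trans hp.out.two_le (Nat.le_self_pow (Nat.succ_ne_zero _) p)
    refine coeff_of_lt_order (lt_of_lt_of_le ?_
      (PowerSeries.le_order_subst _ (.of_constantCoeff_zero (by simp [hA, hp.out.ne_zero])) _))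
    have h1 : ((p ^ ((k : ℕ) + 1) : ℕ) : ℕ∞) ≤ (A ^ p ^ ((k : ℕ) + 1)).order :=
      le_order_pow_of_constantCoeff_eq_zero _ hA
    have h2 : (1 : ℕ∞) ≤ (PowerSeries.map (sigmaQ n p (k + 1)) (logS n p)).order := by
      rw [Order.one_le_iff_ne_zero, PowerSeries.order_ne_zero_iff_constCoeff_eq_zero]
      rw [← PowerSeries.coeff_zero_eq_constantCoeff_apply, PowerSeries.coeff_map,
        PowerSeries.coeff_zero_eq_constantCoeff_apply, logS_constantCoeff, map_zero]
    refine lt_of_lt_of_le ?_ (mul_le_mul' h1 h2)
    rw [Finsupp.degree_single, mul_one]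
    exact_mod_cast hq
  rw [Finset.sum_eq_zero (fun k _ => by rw [hzero _ (constantCoeff_seriesQ n p) k, mul_zero]),
    add_zero] at h
  rw [← h, logSum, map_add, subst_logS (constantCoeff_X 0), subst_logS (constantCoeff_X 1)]
  simp only [map_add, map_sum, coeff_C_mul]
  rw [Finset.sum_eq_zero (fun k _ => by rw [hzero _ (constantCoeff_X 0) k, mul_zero]),
    Finset.sum_eq_zero (fun k _ => by rw [hzero _ (constantCoeff_X 1) k, mul_zero])]
  fin_cases i <;> simp [coeff_index_single_X]

variable (n p)

/-- The universal p-typical law with parameters `u_1, ..., u_(n-1), 1`. -/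
def FP : FormalGroup (PZ n) where
  toPowerSeries := seriesZ n p
  zero_constantCoeff := constantCoeff_seriesZ n p
  lin_coeff_X := seriesZ_lin 0
  lin_coeff_Y := seriesZ_lin 1
  assoc := by
    have h01 : constantCoeff (subst ![(X 0 : MvPowerSeries (Fin 3) (PZ n)), X 1] (seriesZ n p)) = 0 :=
      constantCoeff_subst_eq_zero HasSubst.X_X (fun i => by fin_cases i <;> simp)
        (constantCoeff_seriesZ n p)
    have h12 : constantCoeff (subst ![(X 1 : MvPowerSeries (Fin 3) (PZ n)), X 2] (seriesZ n p)) = 0 :=
      constantCoeff_subst_eq_zero HasSubst.X_X (fun i => by fin_cases i <;> simp)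
        (constantCoeff_seriesZ n p)
    apply map_iotaQ_injective (n := n)
    rw [map_subst_seriesZ h01 (constantCoeff_X 2), map_subst_seriesZ (constantCoeff_X 0) h12,
      map_subst_seriesZ (constantCoeff_X 0) (constantCoeff_X 1),
      map_subst_seriesZ (constantCoeff_X 1) (constantCoeff_X 2), map_X, map_X, map_X]
    have a01 := constantCoeff_subst_seriesQ (n := n) (p := p) (constantCoeff_X (R := PQ n) (0 : Fin 3))
      (constantCoeff_X 1)
    have a12 := constantCoeff_subst_seriesQ (n := n) (p := p) (constantCoeff_X (R := PQ n) (1 : Fin 3))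
      (constantCoeff_X 2)
    refine subst_logS_injective (p := p) (constantCoeff_subst_seriesQ a01 (constantCoeff_X 2))
      (constantCoeff_subst_seriesQ (constantCoeff_X 0) a12) ?_
    rw [log_add a01 (constantCoeff_X 2), log_add (constantCoeff_X 0) a12,
      log_add (constantCoeff_X 0) (constantCoeff_X 1),
      log_add (constantCoeff_X 1) (constantCoeff_X 2), add_assoc]

instance : (FP n p).IsComm where
  comm := by
    apply map_iotaQ_injective (n := n)
    rw [FP, map_subst_seriesZ (constantCoeff_X 1) (constantCoeff_X 0), map_seriesZ, map_X, map_X]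
    refine subst_logS_injective (p := p) (constantCoeff_seriesQ n p)
      (constantCoeff_subst_seriesQ (constantCoeff_X 1) (constantCoeff_X 0)) ?_
    rw [log_add (constantCoeff_X 1) (constantCoeff_X 0), seriesQ,
      subst_subst_expS (constantCoeff_logSum n p), logSum, add_comm]

/-- The map of parameters into the Lubin-Tate ring. -/
def toE : PZ n →+* E p n :=
  MvPolynomial.eval₂Hom (Int.castRingHom (E p n)) (u p n)

/-- The universal deformation over the Lubin-Tate ring. -/
def FE : FormalGroup (E p n) := (FP n p).map (toE n p)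

instance : (FE n p).IsComm where
  comm := by
    have h := congrArg (map (toE n p)) (FormalGroup.IsComm.comm (F := FP n p))
    rw [map_subst HasSubst.X_X] at h
    simp only [FE, FormalGroup.map_toPowerSeries]
    refine h.trans ?_
    congr 1
    funext i
    fin_cases i <;> simp

lemma galois_comp_toE : (galois p n).comp (toE n p) = toE n p := by
  refine MvPolynomial.ringHom_ext (fun z => ?_) (fun j => ?_)
  · simp [toE]
  · simp [toE, galois, u]

lemma FE_galois : (FE n p).map (galois p n) = FE n p := by
  ext1
  simp only [FE, FormalGroup.map_toPowerSeries]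
  rw [MvPowerSeries.map_map, galois_comp_toE]

end

end Vale.Agent.P217
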