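import Vale.Agent.P217.Fgl.Law
import Vale.Agent.P217.Iface

/-!
P217, module M1: the second recursion of the logarithm coefficients, and their values in a
field of characteristic zero.
-/

set_option linter.unusedSectionVars false

namespace Vale.Agent.P217

noncomputable section

variable {n p : ℕ} [hp : Fact p.Prime]

lemma vv_eq_zero {i : ℕ} (h : n < i) : vv n i = 0 := by
  rw [vv, dif_neg (by omega), if_neg (by omega)]

lemma sc_eq_zero {i : ℕ} (h : n < i) : sc n p i = 0 := by
  rw [sc, vv_eq_zero h, map_zero, mul_zero]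

lemma sigmaZ_vv (k i : ℕ) : sigmaZ n p k (vv n i) = vv n i ^ p ^ k := by
  unfold vv
  split_ifs
  · simp [sigmaZ]
  · simp
  · rw [map_zero, zero_pow (pow_ne_zero _ hp.out.ne_zero)]

lemma sigmaQ_sigmaQ (a b : ℕ) (x : PQ n) :
    sigmaQ n p a (sigmaQ n p b x) = sigmaQ n p (a + b) x := by
  simp only [sigmaQ, RingHom.coe_coe, pow_add, MvPolynomial.expand_mul]

lemma sigmaQ_zero (x : PQ n) : sigmaQ n p 0 x = x := by
  simp [sigmaQ]

lemma logC_succ_range (m : ℕ) : logC n p (m + 1) =
    ∑ i ∈ Finset.range (m + 1), sc n p (i + 1) * sigmaQ n p (i + 1) (logC n p (m - i)) := by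
  rw [logC]
  set F : ℕ → PQ n := fun i =>
    if i ≤ m then sc n p (i + 1) * sigmaQ n p (i + 1) (logC n p (m - i)) else 0 with hF
  have h1 : (∑ i : Fin n, if _h : (i : ℕ) ≤ m then
      sc n p (i + 1) * sigmaQ n p (i + 1) (logC n p (m - i)) else 0) = ∑ i ∈ Finset.range n, F i := by
    rw [← Fin.sum_univ_eq_sum_range]
    exact Finset.sum_congr rfl fun i _ => by simp only [hF, dite_eq_ite]
  rw [h1]
  have h2 : ∑ i ∈ Finset.range n, F i = ∑ i ∈ Finset.range (max n (m + 1)), F i := by
    refine Finset.sum_subset (Finset.range_mono (le_max_left _ _)) fun i _ hi => ?_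
    simp only [Finset.mem_range, not_lt] at hi
    simp [hF, sc_eq_zero (n := n) (p := p) (show n < i + 1 by omega)]
  have h3 : ∑ i ∈ Finset.range (m + 1), F i = ∑ i ∈ Finset.range (max n (m + 1)), F i := by
    refine Finset.sum_subset (Finset.range_mono (le_max_right _ _)) fun i _ hi => ?_
    simp only [Finset.mem_range, not_lt] at hi
    simp [hF, show ¬ i ≤ m by omega]
  rw [h2, ← h3]
  exact Finset.sum_congr rfl fun i hi => by
    rw [Finset.mem_range] at hi
    simp [hF, show i ≤ m by omega]

/-- The second recursion: `p a_m = ∑ a_(m-i) u_i^(p^(m-i))`. -/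
lemma logC_succ_right (m : ℕ) : logC n p (m + 1) =
    ∑ i ∈ Finset.range (m + 1), logC n p (m - i) * sigmaQ n p (m - i) (sc n p (i + 1)) := by
  induction m using Nat.strong_induction_on with
  | _ m ih =>
    rw [logC_succ_range, Finset.sum_range_succ, Finset.sum_range_succ, Nat.sub_self]
    simp only [logC, map_one, mul_one, one_mul, sigmaQ_zero]
    congr 1
    have e : ∀ i ∈ Finset.range m, sc n p (i + 1) * sigmaQ n p (i + 1) (logC n p (m - i)) =
        ∑ j ∈ Finset.range (m - i), sc n p (i + 1) *
          sigmaQ n p (i + 1) (logC n p (m - i - 1 - j)) * sigmaQ n p (m - j) (sc n p (j + 1)) := by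
      intro i hi
      rw [Finset.mem_range] at hi
      conv_lhs => rw [show m - i = m - i - 1 + 1 by omega, ih (m - i - 1) (by omega)]
      rw [show m - i - 1 + 1 = m - i by omega, map_sum, Finset.mul_sum]
      refine Finset.sum_congr rfl fun j hj => ?_
      rw [Finset.mem_range] at hj
      rw [map_mul, sigmaQ_sigmaQ, show i + 1 + (m - i - 1 - j) = m - j by omega, mul_assoc]
    rw [Finset.sum_congr rfl e,
      Finset.sum_comm' (t' := Finset.range m) (s' := fun j => Finset.range (m - j))
        (by intro i j; simp only [Finset.mem_range]; omega)]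
    refine Finset.sum_congr rfl fun j hj => ?_
    rw [Finset.mem_range] at hj
    rw [← Finset.sum_mul]
    congr 1
    conv_rhs => rw [show m - j = m - j - 1 + 1 by omega, logC_succ_range]
    rw [show m - j - 1 + 1 = m - j by omega]
    refine Finset.sum_congr rfl fun i hi => ?_
    rw [show m - j - 1 - i = m - i - 1 - j by omega]

/-- Evaluation of `ℚ[u]` in a field of characteristic zero. -/
def evalL {L : Type*} [Field L] [CharZero L] (a : Fin (n - 1) → L) : PQ n →+* L :=
  MvPolynomial.eval₂Hom (algebraMap ℚ L) a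

lemma evalL_vv {L : Type*} [Field L] [CharZero L] (a : Fin (n - 1) → L) (i : Fin n) :
    evalL a (iotaQ n (vv n ((i : ℕ) + 1))) =
      if h : (i : ℕ) < n - 1 then a ⟨i, h⟩ else 1 := by
  have := i.isLt
  unfold vv
  by_cases h : (i : ℕ) < n - 1
  · rw [dif_pos (by omega), dif_pos h]
    simp [evalL, iotaQ]
  · rw [dif_neg (by omega), if_pos (by omega), dif_neg h, map_one, map_one]

lemma evalL_logC {L : Type} [Field L] [CharZero L] (a : Fin (n - 1) → L) (m : ℕ) :
    evalL a (logC n p m) = logCoeff p n a m := by
  induction m using Nat.strong_induction_on with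
  | _ m ih =>
    match m with
    | 0 => simp [logC, logCoeff]
    | m + 1 =>
      rw [logC_succ_right, logCoeff, map_sum, Finset.mul_sum]
      set F : ℕ → L := fun i => if i ≤ m then
        evalL a (logC n p (m - i) * sigmaQ n p (m - i) (sc n p (i + 1))) else 0 with hF
      have h1 : ∑ i ∈ Finset.range (m + 1),
          evalL a (logC n p (m - i) * sigmaQ n p (m - i) (sc n p (i + 1))) =
          ∑ i ∈ Finset.range (max n (m + 1)), F i := by
        rw [Finset.sum_congr rfl (g := F) fun i hi => by
          rw [Finset.mem_range] at hi; simp [hF, show i ≤ m by omega]]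
        refine Finset.sum_subset (Finset.range_mono (le_max_right _ _)) fun i _ hi => ?_
        simp only [Finset.mem_range, not_lt] at hi
        simp [show ¬ i ≤ m by omega]
      have h2 : ∑ i ∈ Finset.range n, F i = ∑ i ∈ Finset.range (max n (m + 1)), F i := by
        refine Finset.sum_subset (Finset.range_mono (le_max_left _ _)) fun i _ hi => ?_
        simp only [Finset.mem_range, not_lt] at hi
        simp [hF, sc_eq_zero (n := n) (p := p) (show n < i + 1 by omega)]
      rw [h1, ← h2, ← Fin.sum_univ_eq_sum_range]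
      refine Finset.sum_congr rfl fun i _ => ?_
      by_cases h : (i : ℕ) ≤ m
      · simp only [hF, if_pos h]
        rw [map_mul, ih (m - i) (by omega)]
        have e : evalL a (sigmaQ n p (m - i) (sc n p ((i : ℕ) + 1))) = (p : L)⁻¹ *
            (if hlt : (i : ℕ) < n - 1 then a ⟨i, hlt⟩ else 1) ^ p ^ (m - i) := by
          rw [sc, map_mul, map_mul, sigmaQ_iotaQ, sigmaZ_vv, map_pow, map_pow, evalL_vv]
          congr 1
          simp [sigmaQ, evalL]
        rw [e]
        ring
      · simp only [hF, if_neg h, mul_zero]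

/-- The logarithm evaluated in a field. -/
lemma isLogSeries_map {L : Type} [Field L] [CharZero L] (a : Fin (n - 1) → L) :
    IsLogSeries p n a (PowerSeries.map (evalL a) (logS n p)) := by
  constructor
  · intro m; rw [PowerSeries.coeff_map, logS_coeff_pow, evalL_logC]
  · intro i hi
    rw [PowerSeries.coeff_map, logS_coeff_eq_zero (fun m h => hi m h.symm), map_zero]

lemma isLogSeries_unique {L : Type} [Field L] (a : Fin (n - 1) → L) {f g : PowerSeries L}
    (hf : IsLogSeries p n a f) (hg : IsLogSeries p n a g) : f = g := by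
  ext i
  by_cases h : ∀ m, i ≠ p ^ m
  · rw [hf.2 i h, hg.2 i h]
  · push Not at h
    obtain ⟨m, rfl⟩ := h
    rw [hf.1, hg.1]

end

end Vale.Agent.P217
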